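import Vale.Agent.P078.Local.Exit.Potential
import Vale.Agent.P078.Local.Slice.Line
import Vale.Agent.P078.Local.Slice.Tail

/-!
# The probability of an exit (`StmtExit`)
-/

noncomputable section

namespace Vale.Agent.P078.Local.Exit

open Finset

variable {ι : Type*} [Fintype ι] [DecidableEq ι] {p : Par} {N : Net ι p.D} {i : Fin 3} {s : Bool}
  {S : Finset ι} {ω : Seeds ι p} {st : St ι p.r} {a : ℕ}

omit [Fintype ι] [DecidableEq ι] in
theorem rise_half (L ρ : ℝ) : (fun _ : ι => L + ρ / 4 + ρ / 4) = fun _ => L + ρ / 2 := by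
  funext u; ring

/-- At the start of a period a watched row is at most `M + 1/16`. -/
theorem start_row (hc : PerCtx p N st i s a S) {l : ι}
    (hl : l ∈ watched p N i s (p.floor i a) st.h S) :
    Irow S st.h (fun _ => p.floor i a + p.rise i / 2) (N.xs s) l ≤ p.M + 1 / 16 := by
  classical
  simp only [watched, mem_filter] at hl
  obtain ⟨hlc, -, hsec⟩ := hl
  have hp := hc.ok
  have hlS : l ∈ S := core_subset hlc
  have hh : IsLaw S st.h := hc.law.mono (subset_univ _)
  have hρ := Par.rise_pos hp i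
  have hρ1 := Par.rise_le hp i
  have hA := hc.A_le
  have hd : ∀ u, N.xs s u u = 0 := fun u => N.xs_diag s u
  have hv : ∀ g, 0 ≤ g → Valid S st.h (fun _ => p.floor i a + g) (N.xs s) := fun g hg =>
    hc.valid.mono hh fun u _ => le_add_of_nonneg_right hg
  have hB := ball_subset_of_core hlc
  have hline := (lineStmt S st.h (fun _ => p.floor i a + p.rise i / 4) (N.xs s) l hh hlS hd
    (hv _ (by linarith)) (p.rise i / 4) (by linarith)).2.1
  simp only [rise_half] at hline
  have htail := (Slice.tail p.D N s S st.h (fun _ => p.floor i a + p.rise i / 4) l (p.R i)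
    (p.rise i / 8) hh (hp.R_ge i) (by linarith) (by linarith) (fun u _ => by linarith) hB
    (by
      have := hv (p.rise i / 8) (by linarith)
      refine this.mono hh fun u _ => ?_
      linarith)).1
  have hord := (Slice.order S (N.ball l (p.R i)) st.h (fun _ => p.floor i a + p.rise i / 2)
    (fun _ => p.floor i a + p.rise i / 2) (N.xs s) l l hh hB (N.mem_ball_self l _) hlS hd
    (hv _ (by linarith)) fun _ _ => le_rfl).2.2.2.2.2.1
  have htl : tailB (p.R i) (p.rise i / 8) ≤ p.rise i / 64 := hp.tl_le i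
  rw [div_le_iff₀ (by linarith)] at hsec
  refine le_of_mul_le_mul_left ?_ (by linarith : 0 < p.rise i / 4)
  linarith

theorem mem_watched_of_ex (σ : Coins ι p) {l : ι} : ∀ (sls : List (Slot ι p)),
    l ∈ (axRun p N ω σ i s a S st sls).2.ex → l ∈ watched p N i s (p.floor i a) st.h S := by
  intro sls
  induction sls using List.reverseRecOn with
  | nil =>
    intro h
    simp only [axRun, List.foldl_nil, axInit, high, mem_filter] at h
    exact h.1
  | append_singleton sls sl ih =>
    rw [axRun_concat]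
    obtain ⟨m, _ | w⟩ := sl
    · exact ih
    · simp only [axStep, axJump]
      split
      · intro h
        rcases mem_union.1 h with h | h
        · exact ih h
        · exact filter_subset _ _ h
      · exact ih

/-- The numbers behind `pE`. -/
theorem numbers {J η K M lam kap : ℝ} (hJ : 0 < J) (hη : 0 < η) (hK : 1 ≤ K) (hM : 1 ≤ M)
    (hd : 50 * K * η * J ≤ 1) (hlam : lam = 1 / (16 * (J ^ 2 * η * K)))
    (hkap : kap = 2 * lam * (J * η) + 2 * lam ^ 2 * (J ^ 2 * η)) :
    0 ≤ lam ∧ 0 ≤ kap ∧ (lam + kap) * (J * η) + (lam + kap) ^ 2 * (J ^ 2 * η) / 2 ≤ kap ∧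
      lam * (M + 1 / 16) + kap * (3 * M * K) - 3 * M * lam ≤ -(M / (64 * K * η * J ^ 2)) := by
  have hl0 : 0 < lam := by rw [hlam]; positivity
  have hk0 : 0 ≤ kap := by rw [hkap]; positivity
  have e : lam * (J ^ 2 * η) * K = 1 / 16 := by
    rw [hlam]; field_simp
  have e1 : lam * (J ^ 2 * η) ≤ 1 / 16 := le_trans (le_mul_of_one_le_right (by positivity) hK) e.le
  have e2 : J * η ≤ 1 / 50 := by nlinarith [mul_pos hη hJ]
  have hkl : kap ≤ lam := by
    rw [hkap]
    nlinarith [mul_le_mul_of_nonneg_left e2 hl0.le, mul_le_mul_of_nonneg_left e1 hl0.le]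
  refine ⟨hl0.le, hk0, ?_, ?_⟩
  · have h2 : lam + kap ≤ 2 * lam := by linarith
    have h3 := mul_le_mul_of_nonneg_right h2 (by positivity : 0 ≤ J * η)
    have h4 := mul_le_mul_of_nonneg_right (pow_le_pow_left₀ (by positivity) h2 2)
      (by positivity : 0 ≤ J ^ 2 * η)
    nlinarith
  · have h5 : kap * (3 * M * K) ≤ lam * M * (6 / 50) + lam * M * (6 / 16) := by
      rw [hkap]
      have a1 : (J * η) * K ≤ 1 / 50 := by nlinarith
      have b1 := mul_le_mul_of_nonneg_left a1 (by positivity : 0 ≤ 6 * (lam * M))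
      have b2 : 6 * (lam * M) * (lam * (J ^ 2 * η) * K) = 6 * (lam * M) * (1 / 16) := by rw [e]
      nlinarith
    have e3 : M / (64 * K * η * J ^ 2) = lam * M / 4 := by
      rw [hlam]; field_simp; ring
    have h6 : lam * 1 ≤ lam * M := mul_le_mul_of_nonneg_left hM hl0.le
    rw [e3]
    nlinarith [mul_pos hl0 (lt_of_lt_of_le one_pos hM)]

/-- The probability of an exit, whatever happened before the period (`StmtExit`). -/
theorem prob_exit_le (hp : p.Ok) (N : Net ι p.D) (ω : Seeds ι p) (i : Fin 3) (s : Bool) (a : ℕ)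
    (S : Finset ι) (st : St ι p.r) (l : ι) (hdvd : p.len i ∣ a) (hfit : a + p.len i ≤ p.Nph)
    (hlaw : IsLaw Finset.univ st.h) (hval : Valid S st.h (fun _ => p.floor i a) (N.xs s)) :
    prob (fun σ : Coins ι p => l ∈ perEx p N ω σ i s a S st) ≤ p.pE i := by
  classical
  have hc : PerCtx p N st i s a S := ⟨hp, hdvd, hfit, hlaw, hval⟩
  by_cases hl : l ∈ watched p N i s (p.floor i a) st.h S
  swap
  · refine le_trans (le_of_eq ?_) (by unfold Par.pE; positivity : (0 : ℝ) ≤ p.pE i)
    simp only [prob]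
    refine Eq.trans ?_ (avg_const (α := Coins ι p) 0)
    congr 1
    funext σ
    exact if_neg fun h => hl (mem_watched_of_ex σ _ h)
  have hM := hp.M_ge
  have hK : (1 : ℝ) ≤ p.len i := by exact_mod_cast len_pos hp i
  have hJ : 0 < p.jb := by
    have hr : (0 : ℝ) < p.r := by
      have := hp.r_ge
      exact_mod_cast (by omega : 0 < p.r)
    unfold Par.jb; positivity
  set lam := 1 / (16 * (p.jb ^ 2 * p.η * p.len i)) with hlam
  set kap := 2 * lam * (p.jb * p.η) + 2 * lam ^ 2 * (p.jb ^ 2 * p.η) with hkap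
  obtain ⟨hl0, hk0, hle, hnum⟩ := numbers hJ hp.η_pos hK hM (hp.drift i) hlam hkap
  have hbad : ∀ r (q : St ι p.r × Ax ι p.r), l ∈ q.2.ex →
      Real.exp (3 * p.M * lam) ≤ pot N s S l lam kap r q := fun r q h => by simp [pot, h]
  have hsup := super_inv
    (fun q sl b => axStep p N ω i s S (watched p N i s (p.floor i a) st.h S) q sl b)
    (pot N s S l lam kap) (fun q => l ∈ q.2.ex) (Reach N i s S ω st a) (Real.exp (3 * p.M * lam))
    (fun r q => by unfold pot; split_ifs <;> exact (Real.exp_pos _).le) hbad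
    (fun sl r q R hb => ⟨fun b => reach_step R b, pot_step hc hl hl0 hk0 hle R hb⟩)
    (seg p ω a (a + p.len i)) (st, axInit p N i s (p.floor i a) st.h S) (seg_nodup ω _ _)
    ⟨fun _ => true, 0, rfl, rfl⟩
  have hI := start_row hc hl
  have hnot : l ∉ (axInit p N i s (p.floor i a) st.h S).ex := by
    simp only [axInit, high, mem_filter, not_and, not_lt]
    intro _
    linarith
  obtain ⟨-, hmk, hpd⟩ := seg_info ω (p.len i) a hfit
  have h0 : pot N s S l lam kap (seg p ω a (a + p.len i))
      (st, axInit p N i s (p.floor i a) st.h S)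
      ≤ Real.exp (lam * (p.M + 1 / 16) + kap * (3 * p.M * p.len i)) := by
    simp only [pot, if_neg hnot, expo, hmk, hpd, empty_inter, sum_empty, zero_add]
    exact Real.exp_le_exp.2 (add_le_add (mul_le_mul_of_nonneg_left hI hl0) le_rfl)
  have hev : prob (fun σ : Coins ι p => l ∈ perEx p N ω σ i s a S st) ≤ prob (fun σ : Coins ι p =>
      ∃ j, l ∈ (((seg p ω a (a + p.len i)).take j).foldl
        (fun q sl => axStep p N ω i s S (watched p N i s (p.floor i a) st.h S) q sl (σ sl))
        (st, axInit p N i s (p.floor i a) st.h S)).2.ex) :=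
    prob_mono fun σ h => ⟨(seg p ω a (a + p.len i)).length, by rw [List.take_length]; exact h⟩
  refine hev.trans ?_
  rw [← le_div_iff₀' (Real.exp_pos _)] at hsup
  refine hsup.trans ((div_le_div_of_nonneg_right h0 (Real.exp_pos _).le).trans ?_)
  rw [← Real.exp_sub]
  refine (Real.exp_le_exp.2 hnum).trans ?_
  exact le_mul_of_one_le_left (Real.exp_pos _).le (le_add_of_nonneg_left (Nat.cast_nonneg _))

end Vale.Agent.P078.Local.Exit
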