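import Vale.Agent.P078.Local.Exit.State

/-!
# The exponential potential of one watched row

`λ I_l + κ V`, where `V` adds the entries `W_lu` of the sites still to come in the phase and `3 M`
for each phase still to begin, is an exponential supermartingale until the exit of `l`.
-/

noncomputable section

namespace Vale.Agent.P078.Local.Exit

open Finset

variable {ι : Type*} [Fintype ι] [DecidableEq ι] {p : Par}

/-- The exponent of the potential. -/
def expo (N : Net ι p.D) (s : Bool) (S : Finset ι) (l : ι) (lam kap : ℝ) (rest : List (Slot ι p))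
    (A : Ax ι p.r) : ℝ :=
  lam * Irow S A.h A.Z (N.xs s) l
    + kap * (∑ u ∈ pend rest ∩ S, W S A.h A.Z (N.xs s) l u + 3 * p.M * marks rest)

variable {N : Net ι p.D} {i : Fin 3} {s : Bool} {S : Finset ι} {ω : Seeds ι p} {st : St ι p.r} {a : ℕ}

/-- The potential, frozen at the level of an exit once `l` is out. -/
def pot (N : Net ι p.D) (s : Bool) (S : Finset ι) (l : ι) (lam kap : ℝ) (rest : List (Slot ι p))
    (q : St ι p.r × Ax ι p.r) : ℝ :=
  if l ∈ q.2.ex then Real.exp (3 * p.M * lam) else Real.exp (expo N s S l lam kap rest q.2)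

theorem pot_step (hc : PerCtx p N st i s a S) {l : ι}
    (hl : l ∈ watched p N i s (p.floor i a) st.h S) {lam kap : ℝ} (hlam : 0 ≤ lam) (hkap : 0 ≤ kap)
    (hle : (lam + kap) * (p.jb * p.η) + (lam + kap) ^ 2 * (p.jb ^ 2 * p.η) / 2 ≤ kap)
    {sl : Slot ι p} {rest : List (Slot ι p)} {q : St ι p.r × Ax ι p.r}
    (R : Reach N i s S ω st a (sl :: rest) q) (hle' : l ∉ q.2.ex) :
    pot N s S l lam kap rest
        (axStep p N ω i s S (watched p N i s (p.floor i a) st.h S) q sl true)
      + pot N s S l lam kap rest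
        (axStep p N ω i s S (watched p N i s (p.floor i a) st.h S) q sl false)
      ≤ 2 * pot N s S l lam kap (sl :: rest) q := by
  classical
  obtain ⟨hord, hh, hv, -, -, hrow⟩ := reach_facts hc R
  have hlS : l ∈ S := core_subset (mem_filter.1 hl).1
  have hW0 : ∀ u ∈ S, 0 ≤ W S q.2.h q.2.Z (N.xs s) l u := fun u hu => W_nonneg_reach hc R hlS hu
  have hM := hc.ok.M_ge
  set Wt := watched p N i s (p.floor i a) st.h S with hWt
  have keep : ∀ b, (axStep p N ω i s S Wt q sl b).2 = q.2 →
      expo N s S l lam kap rest q.2 ≤ expo N s S l lam kap (sl :: rest) q.2 →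
      pot N s S l lam kap rest (axStep p N ω i s S Wt q sl b)
        ≤ pot N s S l lam kap (sl :: rest) q := fun b e h => by
    simp only [pot, e, if_neg hle']
    exact Real.exp_le_exp.2 h
  obtain ⟨n, _ | w⟩ := sl
  · have h : expo N s S l lam kap rest q.2 ≤ expo N s S l lam kap ((n, none) :: rest) q.2 := by
      have : ∑ u ∈ pend rest ∩ S, W S q.2.h q.2.Z (N.xs s) l u ≤ 3 * p.M :=
        (sum_le_sum_of_subset_of_nonneg inter_subset_right fun u hu _ => hW0 u hu).trans
          (hrow l hl hle')
      simp only [expo, pend, marks, empty_inter, sum_empty, Nat.cast_add, Nat.cast_one, zero_add]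
      linarith [mul_le_mul_of_nonneg_left this hkap]
    have h1 := keep true rfl h
    have h2 := keep false rfl h
    linarith
  by_cases hw : w ∈ core p N i S ∧ w ∉ q.2.ex
  swap
  · have e : ∀ b, (axStep p N ω i s S Wt q (n, some w) b).2 = q.2 := fun b => by
      simp only [axStep, axJump, if_neg hw]
    have h : expo N s S l lam kap rest q.2 ≤ expo N s S l lam kap ((n, some w) :: rest) q.2 := by
      simp only [expo, pend, marks]
      refine add_le_add le_rfl (mul_le_mul_of_nonneg_left (add_le_add ?_ le_rfl) hkap)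
      exact sum_le_sum_of_subset_of_nonneg (inter_subset_inter_right (subset_insert _ _))
        fun u hu _ => hW0 u (mem_inter.1 hu).2
    have h1 := keep true (e true) h
    have h2 := keep false (e false) h
    linarith
  have hwS : w ∈ S := core_subset hw.1
  obtain ⟨LI, QI, hLI, hQI, hI⟩ := row_step hc R hw.1 hw.2 hl hle' S subset_rfl
  obtain ⟨LV, QV, hLV, hQV, hV⟩ := row_step hc R hw.1 hw.2 hl hle' (pend rest ∩ S) inter_subset_right
  set A' := fun b => jumped N s S q.2 w (jumpAt p N ω n q.1 w b) with hA'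
  have hax : ∀ b, (axStep p N ω i s S Wt q (n, some w) b).2
      = { A' b with ex := q.2.ex ∪ high p N s S Wt (A' b) } := fun b => by
    simp only [axStep, axJump, if_pos hw]
    rfl
  set g := fun b => expo N s S l lam kap rest (A' b) with hg
  have hpot : ∀ b, pot N s S l lam kap rest (axStep p N ω i s S Wt q (n, some w) b)
      ≤ Real.exp (g b) := by
    intro b
    obtain ⟨-, -, hv', -⟩ := reach_facts hc (reach_step R b)
    have hh' := (reach_facts hc (reach_step R b)).2.1
    rw [hax b] at hv' hh'
    simp only [pot, hax b]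
    split_ifs with hex
    · refine Real.exp_le_exp.2 ?_
      have h3 : 3 * p.M < Irow S (A' b).h (A' b).Z (N.xs s) l := by
        rcases mem_union.1 hex with h | h
        · exact absurd h hle'
        · exact (mem_filter.1 h).2
      have : 0 ≤ ∑ u ∈ pend rest ∩ S, W S (A' b).h (A' b).Z (N.xs s) l u :=
        sum_nonneg fun u hu => Slice.W_nonneg hh' hlS (mem_inter.1 hu).2 (N.xs_herm s)
      simp only [hg, expo]
      nlinarith [mul_le_mul_of_nonneg_left h3.le hlam,
        mul_nonneg hkap (add_nonneg this (by positivity : (0 : ℝ) ≤ 3 * p.M * marks rest))]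
    · exact le_rfl
  set Wlw := W S q.2.h q.2.Z (N.xs s) l w with hWlw
  have hW : 0 ≤ Wlw := hW0 w hwS
  have hsum : ∑ u ∈ pend ((n, some w) :: rest) ∩ S, W S q.2.h q.2.Z (N.xs s) l u
      = Wlw + ∑ u ∈ pend rest ∩ S, W S q.2.h q.2.Z (N.xs s) l u := by
    simp only [pend]
    rw [insert_inter_of_mem hwS, sum_insert fun h => hord.1 (mem_inter.1 h).1]
  have hgb : ∀ b, g b ≤ (expo N s S l lam kap ((n, some w) :: rest) q.2 - kap * Wlw)
      + coin b * (lam * LI + kap * LV) + (lam * QI + kap * QV) := by
    intro b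
    refine le_of_eq ?_
    simp only [hg, expo, hsum, marks, Irow, hA']
    rw [hI b, hV b]
    ring
  have hexp := exp_coin_step (lam := 1) (by norm_num) (g := g) hgb
  simp only [one_mul, one_pow] at hexp
  have hη := hc.ok.η_pos
  have hjb : 0 ≤ p.jb := by unfold Par.jb; positivity
  have hfin : expo N s S l lam kap ((n, some w) :: rest) q.2 - kap * Wlw + (lam * QI + kap * QV)
      + (lam * LI + kap * LV) ^ 2 / 2 ≤ expo N s S l lam kap ((n, some w) :: rest) q.2 := by
    have hQ : lam * QI + kap * QV ≤ (lam + kap) * (p.jb * p.η) * Wlw := by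
      nlinarith [mul_le_mul_of_nonneg_left ((le_abs_self QI).trans hQI) hlam,
        mul_le_mul_of_nonneg_left ((le_abs_self QV).trans hQV) hkap]
    have hL : |lam * LI + kap * LV| ≤ (lam + kap) * (p.jb * Real.sqrt p.η * Real.sqrt Wlw) := by
      refine (abs_add_le _ _).trans ?_
      rw [abs_mul, abs_mul, abs_of_nonneg hlam, abs_of_nonneg hkap, add_mul]
      exact add_le_add (mul_le_mul_of_nonneg_left hLI hlam) (mul_le_mul_of_nonneg_left hLV hkap)
    have hL2 : (lam * LI + kap * LV) ^ 2 ≤ (lam + kap) ^ 2 * (p.jb ^ 2 * p.η) * Wlw := by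
      rw [← sq_abs]
      refine (pow_le_pow_left₀ (abs_nonneg _) hL 2).trans (le_of_eq ?_)
      rw [mul_pow, mul_pow, mul_pow, Real.sq_sqrt hη.le, Real.sq_sqrt hW]
      ring
    linarith [mul_le_mul_of_nonneg_right hle hW]
  have hmono := Real.exp_le_exp.2 hfin
  have h1 := hpot true
  have h2 := hpot false
  simp only [pot, if_neg hle']
  simp only [pot] at h1 h2
  linarith

end Vale.Agent.P078.Local.Exit
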