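import Vale.Agent.P078.Local.Period.Run

/-!
# The slots still to come in a period

For a list of slots `pend` is the set of the sites still to come in the current phase and `marks`
the number of phases still to begin; a site comes
once in a phase.
-/

noncomputable section

namespace Vale.Agent.P078.Local.Exit

variable {ι : Type*} [DecidableEq ι] {p : Par}

/-- The sites still to come in the current phase. -/
def pend : List (Slot ι p) → Finset ι
  | [] => ∅
  | (_, none) :: _ => ∅
  | (_, some u) :: r => insert u (pend r)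

/-- The phases still to begin. -/
def marks : List (Slot ι p) → ℕ
  | [] => 0
  | (_, none) :: r => marks r + 1
  | (_, some _) :: r => marks r

/-- No site comes twice in one phase. -/
def Ord : List (Slot ι p) → Prop
  | [] => True
  | (_, none) :: r => Ord r
  | (_, some u) :: r => u ∉ pend r ∧ Ord r

theorem block (n : Fin p.Nph) : ∀ (L : List ι) (r : List (Slot ι p)), L.Nodup → Ord r → pend r = ∅ →
    Ord (L.map (fun l => (n, some l)) ++ r) ∧
      pend (L.map (fun l => (n, some l)) ++ r) = L.toFinset ∧
      marks (L.map (fun l => (n, some l)) ++ r) = marks r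
  | [], r, _, h1, h2 => ⟨h1, by simp [h2], rfl⟩
  | u :: L, r, hnd, h1, h2 => by
    obtain ⟨hu, hL⟩ := List.nodup_cons.1 hnd
    obtain ⟨e1, e2, e3⟩ := block n L r hL h1 h2
    simp only [List.map_cons, List.cons_append, Ord, pend, marks, List.toFinset_cons, e2, e3]
    exact ⟨⟨by simpa using hu, e1⟩, trivial, trivial⟩

variable [Fintype ι] (ω : Seeds ι p)

omit [DecidableEq ι] in
/-- A phase is its marker and then its sites, each once. -/
theorem phaseSlots_eq (n : Fin p.Nph) : ∃ L : List ι, L.Nodup ∧
    phaseSlots p ω n = (n, none) :: L.map fun l => (n, some l) := by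
  refine ⟨_, ?_, rfl⟩
  exact List.Nodup.of_map _ (List.nodup_cons.1 (phaseSlots_nodup (p := p) ω n)).2

theorem seg_info : ∀ (k a : ℕ), a + k ≤ p.Nph →
    Ord (seg p ω a (a + k)) ∧ marks (seg p ω a (a + k)) = k ∧ pend (seg p ω a (a + k)) = ∅
  | 0, a, _ => by rw [Nat.add_zero, seg_self]; exact ⟨trivial, rfl, rfl⟩
  | k + 1, a, ha => by
    obtain ⟨h1, h2, h3⟩ := seg_info k (a + 1) (by omega)
    rw [show a + (k + 1) = a + 1 + k by omega, seg_split ω (Nat.le_succ a) (by omega),
      seg_succ ω (by omega : a < p.Nph)]
    obtain ⟨L, hL, e⟩ := phaseSlots_eq ω (⟨a, by omega⟩ : Fin p.Nph)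
    obtain ⟨b1, -, b3⟩ := block (p := p) ⟨a, by omega⟩ L _ hL h1 h3
    rw [e, List.cons_append]
    exact ⟨b1, by simp only [marks]; rw [b3, h2], rfl⟩

omit [Fintype ι] in
/-- The invariant `Ord` passes to the slots still to come. -/
theorem ord_drop : ∀ (r : List (Slot ι p)) (k : ℕ), Ord r → Ord (r.drop k)
  | r, 0, h => by simpa using h
  | [], _ + 1, _ => by simp [Ord]
  | (_, none) :: r, k + 1, h => ord_drop r k h
  | (_, some _) :: r, k + 1, h => ord_drop r k h.2

end Vale.Agent.P078.Local.Exit
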