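import Vale.Agent.P078.Local.Exit.Slots
import Vale.Agent.P078.Local.Period.ZBound
import Vale.Agent.P078.Local.Slice.Jump
import Vale.Agent.P078.Local.Slice.Order
import Vale.Agent.P078.Local.Flip.Super

/-!
# One jump of the exact process, as seen by a watched row
-/

noncomputable section

namespace Vale.Agent.P078.Local.Exit

open Finset

variable {ι : Type*} [Fintype ι] [DecidableEq ι] {p : Par} {N : Net ι p.D} {i : Fin 3} {s : Bool}
  {S : Finset ι} {ω : Seeds ι p} {st : St ι p.r} {a : ℕ}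

variable (N i s S ω st a) in
/-- The states that a period can be in, with the slots still to come. -/
def Reach (rest : List (Slot ι p)) (q : St ι p.r × Ax ι p.r) : Prop :=
  ∃ (σ : Coins ι p) (k : ℕ), q = axRun p N ω σ i s a S st ((seg p ω a (a + p.len i)).take k) ∧
    rest = (seg p ω a (a + p.len i)).drop k

theorem reach_head {rest : List (Slot ι p)} {sl : Slot ι p} {q : St ι p.r × Ax ι p.r}
    (R : Reach N i s S ω st a (sl :: rest) q) :
    ∃ (σ : Coins ι p) (k : ℕ) (hk : k < (seg p ω a (a + p.len i)).length),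
      q = axRun p N ω σ i s a S st ((seg p ω a (a + p.len i)).take k) ∧
        (seg p ω a (a + p.len i))[k] = sl ∧ rest = (seg p ω a (a + p.len i)).drop (k + 1) := by
  obtain ⟨σ, k, hq, hr⟩ := R
  have hk : k < (seg p ω a (a + p.len i)).length := by
    by_contra h
    rw [List.drop_of_length_le (not_lt.1 h)] at hr
    simp at hr
  rw [List.drop_eq_getElem_cons hk] at hr
  injection hr with h1 h2
  exact ⟨σ, k, hk, hq, h1.symm, h2⟩

theorem reach_step {rest : List (Slot ι p)} {sl : Slot ι p} {q : St ι p.r × Ax ι p.r}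
    (R : Reach N i s S ω st a (sl :: rest) q) (b : Bool) :
    Reach N i s S ω st a rest
      (axStep p N ω i s S (watched p N i s (p.floor i a) st.h S) q sl b) := by
  obtain ⟨σ, k, hk, hq, hsl, hr⟩ := reach_head R
  refine ⟨Function.update σ sl b, k + 1, ?_, hr⟩
  rw [List.take_succ_eq_append_getElem hk, axRun_concat, hsl, Function.update_self, hq]
  congr 1
  simp only [axRun]
  refine foldl_congr_coins (fun u x c => axStep p N ω i s S _ u x c) _ _ fun x hx => ?_
  refine (Function.update_of_ne ?_ _ _).symm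
  rintro rfl
  have hnd := seg_nodup ω a (a + p.len i)
  obtain ⟨j, hj, hje⟩ := List.getElem_of_mem hx
  rw [List.length_take] at hj
  rw [List.getElem_take] at hje
  have := (hnd.getElem_inj_iff (hi := by omega) (hj := hk)).1 (hje.trans hsl.symm)
  omega

variable (hc : PerCtx p N st i s a S)
include hc

theorem reach_facts {rest : List (Slot ι p)} {q : St ι p.r × Ax ι p.r}
    (R : Reach N i s S ω st a rest q) :
    Ord rest ∧ IsLaw S q.2.h ∧ Valid S q.2.h q.2.Z (N.xs s) ∧ (∀ u, q.2.Z u ≤ 2) ∧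
      (∀ u ∈ core p N i S, u ∉ q.2.ex → q.2.h u = q.1.h u) ∧
      (∀ u ∈ watched p N i s (p.floor i a) st.h S, u ∉ q.2.ex →
        Irow S q.2.h q.2.Z (N.xs s) u ≤ 3 * p.M) := by
  obtain ⟨σ, k, rfl, rfl⟩ := R
  refine ⟨ord_drop _ _ (seg_info ω _ _ hc.fit).1,
    (axRun_isLaw (N := N) ω st σ hc.ok hc.law _).mono (subset_univ _),
    (hc.valid_crude ω σ k).1, fun u => ?_, fun u hu he => ?_, fun u hu he => ?_⟩
  · linarith [(abs_le.1 (hc.Z_crude ω σ k u)).2, hc.A_le]
  · rw [(ax_h_eq (N := N) ω st σ _ u).1 hu he, axRun_fst]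
  · exact Irow_le_of_watched (N := N) ω σ hu he

theorem W_nonneg_reach {rest : List (Slot ι p)} {q : St ι p.r × Ax ι p.r}
    (R : Reach N i s S ω st a rest q) {l u : ι} (hl : l ∈ S) (hu : u ∈ S) :
    0 ≤ W S q.2.h q.2.Z (N.xs s) l u :=
  Slice.W_nonneg (reach_facts hc R).2.1 hl hu (N.xs_herm s)

theorem watched_of_move {rest : List (Slot ι p)} {q : St ι p.r × Ax ι p.r} {n : Fin p.Nph} {w : ι}
    (R : Reach N i s S ω st a ((n, some w) :: rest) q) (hw : w ∈ core p N i S)
    (hcan : canMove p N ω n q.1 w) : w ∈ watched p N i s (p.floor i a) st.h S := by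
  classical
  obtain ⟨σ, k, hk, hq, hsl, -⟩ := reach_head R
  rw [hq, axRun_fst] at hcan
  simp only [watched, mem_filter]
  exact ⟨hw, (canMove_period (N := N) ω σ hc hk hsl hcan).2.1⟩

omit hc in
/-- The exact process after the jump of `w`. -/
def jumped (N : Net ι p.D) (s : Bool) (S : Finset ι) (A : Ax ι p.r) (w : ι) (ξ : Fin p.r → ℝ) :
    Ax ι p.r :=
  { h := Function.update A.h w (A.h w + ξ)
    Z := Function.update A.Z w (A.Z w + ∑ c, ξ c * m S w A.h c A.Z (N.xs s))
    ex := A.ex }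

/-- Sums of `W_lu` over sites change by a fair jump of size `jb √(η W_lw)` and a drift
`jb η W_lw`. -/
theorem row_step {rest : List (Slot ι p)} {q : St ι p.r × Ax ι p.r} {n : Fin p.Nph} {w l : ι}
    (R : Reach N i s S ω st a ((n, some w) :: rest) q) (hw : w ∈ core p N i S) (he : w ∉ q.2.ex)
    (hl : l ∈ watched p N i s (p.floor i a) st.h S) (hle : l ∉ q.2.ex) (U : Finset ι) (hU : U ⊆ S) :
    ∃ L Q : ℝ, |L| ≤ p.jb * Real.sqrt p.η * Real.sqrt (W S q.2.h q.2.Z (N.xs s) l w) ∧
      |Q| ≤ p.jb * p.η * W S q.2.h q.2.Z (N.xs s) l w ∧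
      ∀ b, ∑ u ∈ U, W S (jumped N s S q.2 w (jumpAt p N ω n q.1 w b)).h
          (jumped N s S q.2 w (jumpAt p N ω n q.1 w b)).Z (N.xs s) l u
        = ∑ u ∈ U, W S q.2.h q.2.Z (N.xs s) l u + coin b * L + Q := by
  obtain ⟨-, hh, hv, hZ, hsame, hrow⟩ := reach_facts hc R
  classical
  have hlS : l ∈ S := core_subset (mem_filter.1 hl).1
  have hwS : w ∈ S := core_subset hw
  have hp := hc.ok
  have hjb : 0 ≤ p.jb := by unfold Par.jb; positivity
  have hW := fun {u v : ι} (hu : u ∈ S) (hv : v ∈ S) => W_nonneg_reach hc R hu hv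
  set ξ := jumpAt p N ω n q.1 w true with hξ
  have hcoin : ∀ b, jumpAt p N ω n q.1 w b = fun c => coin b * ξ c := by
    intro b
    funext c
    cases b
    · rw [hξ, ← Bool.not_true, jumpAt_neg]
      simp [coin]
    · simp [coin, ← hξ]
  by_cases hz : ξ = 0
  · refine ⟨0, 0, by rw [abs_zero]; positivity,
      by rw [abs_zero]; exact mul_nonneg (mul_nonneg hjb hp.η_pos.le) (hW hlS hwS), fun b => ?_⟩
    have e : jumpAt p N ω n q.1 w b = 0 := funext fun c => by rw [hcoin, hz]; simp
    simp [jumped, e]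
  have hwWt := watched_of_move hc R hw (canMove_of_jumpAt_ne hz)
  obtain ⟨-, -, H⟩ := jumpStmt S q.2.h q.2.Z (N.xs s) w ξ (Real.sqrt p.η) hh hwS
    (fun u => N.xs_diag s u) hv (hZ w) (sum_jumpAt (N := N) ω n q.1 w true)
    (abs_jumpAt_le (N := N) ω n q.1 w true) (fun c hc' => by
      rw [hsame w hw he]
      exact live_h0 (mem_live_of_jumpAt_ne (N := N) ω n q.1 w true hc'))
  choose! L Q hL hQ hWs using H l hlS
  refine ⟨∑ u ∈ U, L u, ∑ u ∈ U, Q u, ?_, ?_, fun b => ?_⟩
  · set Wl := fun u => W S q.2.h q.2.Z (N.xs s) l u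
    set Ww := fun u => W S q.2.h q.2.Z (N.xs s) w u
    set t := Real.sqrt (W S q.2.h q.2.Z (N.xs s) l w) with ht
    have hl0 : ∀ u ∈ S, 0 ≤ Wl u := fun u hu => hW hlS hu
    have hw0 : ∀ u ∈ S, 0 ≤ Ww u := fun u hu => hW hwS hu
    have hM := hp.M_ge
    have ht0 : 0 ≤ t := Real.sqrt_nonneg _
    have htt : t * t = Wl w := Real.mul_self_sqrt (hl0 w hwS)
    have hIl : ∑ u ∈ S, Wl u ≤ 3 * p.M := hrow l hl hle
    have hIw : ∑ u ∈ S, Ww u ≤ 3 * p.M := hrow w hwWt he
    have ht3 : t ≤ 3 * p.M := by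
      have h3 : Wl w ≤ 3 * p.M := le_trans (single_le_sum hl0 hwS) hIl
      nlinarith
    calc |∑ u ∈ U, L u| ≤ ∑ u ∈ U, |L u| := abs_sum_le_sum_abs _ _
      _ ≤ ∑ u ∈ U, 80 * (p.r : ℝ) ^ 2 * Real.sqrt p.η *
            (t * ((Wl u + Ww u) / 2) + t * (3 * p.M) * Ww u) := by
          refine sum_le_sum fun u hu => (hL u (hU hu)).trans
            (mul_le_mul_of_nonneg_left (add_le_add ?_ ?_) (by positivity))
          · have a1 := hl0 u (hU hu)
            have a2 := hw0 u (hU hu)
            rw [Real.sqrt_le_left (by positivity)]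
            show Wl u * Wl w * Ww u ≤ _
            rw [← htt]
            nlinarith [mul_nonneg (mul_nonneg ht0 ht0) (sq_nonneg (Wl u - Ww u))]
          · show Wl w * Ww u ≤ _
            rw [← htt]
            exact mul_le_mul_of_nonneg_right (mul_le_mul_of_nonneg_left ht3 ht0) (hw0 u (hU hu))
      _ ≤ 80 * (p.r : ℝ) ^ 2 * Real.sqrt p.η * (t * (3 * p.M) + t * (3 * p.M) * (3 * p.M)) := by
          rw [← mul_sum, sum_add_distrib, ← mul_sum, ← mul_sum, ← sum_div, sum_add_distrib]
          refine mul_le_mul_of_nonneg_left (add_le_add (mul_le_mul_of_nonneg_left ?_ ht0)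
            (mul_le_mul_of_nonneg_left ?_ (by positivity))) (by positivity)
          · linarith [(sum_le_sum_of_subset_of_nonneg hU fun u hu _ => hl0 u hu).trans hIl,
              (sum_le_sum_of_subset_of_nonneg hU fun u hu _ => hw0 u hu).trans hIw]
          · exact (sum_le_sum_of_subset_of_nonneg hU fun u hu _ => hw0 u hu).trans hIw
      _ ≤ p.jb * Real.sqrt p.η * t := by
          have : 80 * (p.r : ℝ) ^ 2 * (3 * p.M + 3 * p.M * (3 * p.M)) ≤ p.jb := by
            unfold Par.jb
            nlinarith [mul_le_mul_of_nonneg_left (le_mul_of_one_le_right (by linarith) hM :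
              p.M ≤ p.M * p.M) (sq_nonneg (p.r : ℝ))]
          calc _ = 80 * (p.r : ℝ) ^ 2 * (3 * p.M + 3 * p.M * (3 * p.M))
                * (Real.sqrt p.η * t) := by ring
            _ ≤ p.jb * (Real.sqrt p.η * t) := mul_le_mul_of_nonneg_right this (by positivity)
            _ = _ := by ring
  · have hIw : ∑ u ∈ S, W S q.2.h q.2.Z (N.xs s) w u ≤ 3 * p.M := hrow w hwWt he
    have hM := hp.M_ge
    calc |∑ u ∈ U, Q u| ≤ ∑ u ∈ U, |Q u| := abs_sum_le_sum_abs _ _
      _ ≤ ∑ u ∈ U, 80 * (p.r : ℝ) ^ 2 * p.η *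
            (W S q.2.h q.2.Z (N.xs s) l w * W S q.2.h q.2.Z (N.xs s) w u) := by
          refine sum_le_sum fun u hu => ?_
          have := hQ u (hU hu)
          rwa [Real.sq_sqrt hp.η_pos.le] at this
      _ ≤ 80 * (p.r : ℝ) ^ 2 * p.η * (W S q.2.h q.2.Z (N.xs s) l w * (3 * p.M)) := by
          rw [← mul_sum, ← mul_sum]
          refine mul_le_mul_of_nonneg_left (mul_le_mul_of_nonneg_left ?_ (hW hlS hwS))
            (by have := hp.η_pos; positivity)
          exact (sum_le_sum_of_subset_of_nonneg hU fun u hu _ => hW hwS hu).trans hIw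
      _ ≤ _ := by
          have : 80 * (p.r : ℝ) ^ 2 * (3 * p.M) ≤ p.jb := by
            unfold Par.jb
            nlinarith [mul_le_mul_of_nonneg_left (le_mul_of_one_le_right (by linarith) hM :
              p.M ≤ p.M * p.M) (sq_nonneg (p.r : ℝ))]
          calc _ = 80 * (p.r : ℝ) ^ 2 * (3 * p.M)
                * (p.η * W S q.2.h q.2.Z (N.xs s) l w) := by ring
            _ ≤ p.jb * (p.η * W S q.2.h q.2.Z (N.xs s) l w) :=
              mul_le_mul_of_nonneg_right this (mul_nonneg hp.η_pos.le (hW hlS hwS))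
            _ = _ := by ring
  · rw [mul_sum, ← sum_add_distrib, ← sum_add_distrib]
    refine sum_congr rfl fun u hu => ?_
    have hm : coin b ∈ ({1, -1} : Set ℝ) := by cases b <;> simp [coin]
    have := hWs u (hU hu) (coin b) hm
    simp only [jumped, hcoin b, mul_sum, mul_assoc] at this ⊢
    exact this

end Vale.Agent.P078.Local.Exit
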